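import Vale.Agent.P014T.Sg.Ff

/-! # P014T, block PRIM: change of the smoothing integer in a Siegel unit (helper62) -/

set_option linter.all false

open Complex Matrix UpperHalfPlane
open scoped MatrixGroups

noncomputable section

namespace Vale.Agent.P014T.Pm

open Vale.Agent.P014T.Sg

variable {c e : ℕ}

theorem Gc_smo (hc : c ^ 2 % 24 = 1) (he : e ^ 2 % 24 = 1) {τ z : ℂ} (h1 : th τ (c * z) ≠ 0)
    (h2 : th τ (e * z) ≠ 0) :
    Gc c τ z ^ e ^ 2 * Gc e τ (c * z) = Gc e τ z ^ c ^ 2 * Gc c τ (e * z) := by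
  obtain ⟨k, -, a⟩ := c_sq hc
  obtain ⟨l, -, b⟩ := c_sq he
  have s : ee ((c ^ 2 - 1) / 12 * τ + (c - c ^ 2) / 4) ^ e ^ 2 *
      ee ((e ^ 2 - 1) / 12 * τ + (e - e ^ 2) / 4) = ee ((e ^ 2 - 1) / 12 * τ + (e - e ^ 2) / 4) ^ c ^ 2 *
      ee ((c ^ 2 - 1) / 12 * τ + (c - c ^ 2) / 4) := by
    rw [← ee_nat, ← ee_nat, ← ee_add, ← ee_add]
    refine ee_congr (3 * l * (c - c ^ 2) - 3 * k * (e - e ^ 2)) ?_
    push_cast
    linear_combination (c - c ^ 2) / 4 * b - (e - e ^ 2) / 4 * a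
  simp only [Gc, div_pow, mul_pow, ← pow_mul, mul_left_comm (e : ℂ) c z, Nat.mul_comm (c ^ 2)]
  generalize ee ((c ^ 2 - 1) / 12 * τ + (c - c ^ 2) / 4) = x at *
  generalize ee ((e ^ 2 - 1) / 12 * τ + (e - e ^ 2) / 4) = y at *
  have p1 := pow_ne_zero (e ^ 2) h1
  have p2 := pow_ne_zero (c ^ 2) h2
  generalize th τ (c * (e * z)) = t at *
  generalize th τ (c * z) ^ e ^ 2 = u at *
  generalize th τ (e * z) ^ c ^ 2 = w at *
  generalize th τ z ^ (e ^ 2 * c ^ 2) = r at *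
  by_cases h : t = 0
  · simp [h]
  · field_simp
    linear_combination r * s

open Vale.Agent.P022 H218.L3 P027M.M in
theorem sF_smo (hc : c ^ 2 % 24 = 1) (he : e ^ 2 % 24 = 1) {v : Fin 2 → ℚ}
    (n : Nz (c * e) v) :
    sF c v ^ e ^ 2 * sF e ((c : ℚ) • v) = sF e v ^ c ^ 2 * sF c ((e : ℚ) • v) := by
  have k : ∀ a b : ℕ, Nz (a * b) v → Nz a v ∧ Nz b ((a : ℚ) • v) ∧
      ∀ τ : ℍ, th τ (a * (v 0 * τ + v 1)) ≠ 0 := fun a b n => by
    have n1 : Nz a v := fun m => n fun i => (m i).elim fun x h => ⟨b * x, by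
      push_cast; rw [← h]; ring⟩
    refine ⟨n1, fun m => n fun i => (m i).elim fun x h => ⟨x, by
      rw [← h, Pi.smul_apply, smul_eq_mul]; push_cast; ring⟩, fun τ h => sg_ne n1 τ ?_⟩
    rw [sg, Gc, h, div_zero]
  obtain ⟨a1, a2, a3⟩ := k c e n
  obtain ⟨b1, b2, b3⟩ := k e c (mul_comm c e ▸ n)
  have q : ∀ {a : ℕ} (ha : a ^ 2 % 24 = 1) (h : Nz a v) (m : ℕ), cv (sF a v ^ m) =
      inc (sg a v ^ m) (Hol.pow_mem (hol h) m) := fun ha h m => by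
    rw [map_pow, cv_sF ha h, inc, ← map_pow]
    rfl
  refine cv_inj ?_
  rw [map_mul, map_mul, q hc a1, q he b1, cv_sF he a2, cv_sF hc b2, ← inc_mul, ← inc_mul]
  refine inc_congr _ (funext fun τ => ?_)
  have := Gc_smo hc he (a3 τ) (b3 τ)
  simp only [Pi.mul_apply, Pi.pow_apply, sg, Pi.smul_apply, smul_eq_mul, Rat.cast_mul,
    Rat.cast_natCast, mul_assoc, ← mul_add]
  exact this

end Vale.Agent.P014T.Pm
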