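import Vale.Agent.P014T.Nr.St
import Vale.Agent.P014T.Nr.Grp
import Vale.Agent.P014T.Uy.Cm

/-! # P014T, block PRIM: calculus of the classes (helper62) -/

set_option linter.all false

open UpperHalfPlane CongruenceSubgroup Matrix Finset
open scoped MatrixGroups

noncomputable section

namespace Vale.Agent.P014T.Pm

open Vale.Agent.P022 H218.L3 H231.L3 P027M.M P027M.M.Dp P022K.QT.Cu
open Dr (Hm Ha Tv)
open Sg Nr

section

variable {n : ℕ} {g h : GQ} {k l : ℤ}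

theorem cyc_mul (hn : 0 < n) (a : Cyc n g k) (b : Cyc n h l) : Cyc n (g * h) (k * l) := by
  rw [Uy.cyc_iff] at b ⊢
  rw [AlgEquiv.mul_apply, b, gal_E a hn ⟨l, mul_div_cancel₀ _ (Nat.cast_ne_zero.2 hn.ne')⟩,
    Int.cast_mul, mul_div_assoc]

theorem cyc_one (hn : 0 < n) : Cyc n 1 1 := (Uy.cyc_hm hn).2 (one_mem _)

theorem cyc_inv (hn : 0 < n) (a : Cyc n g k) (b : Cyc n g⁻¹ l) : (n : ℤ) ∣ k * l - 1 :=
  (Uy.cyc_congr hn (cyc_one hn)).1 (mul_inv_cancel g ▸ cyc_mul hn a b)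

theorem cyc_rel (hn : 0 < n) (a : Cyc n g k) (b : Cyc n h l) : g⁻¹ * h ∈ Hm n ↔ (n : ℤ) ∣ l - k := by
  rw [← Uy.cyc_congr hn a, ← Uy.cyc_hm hn]
  refine ⟨fun e => ?_, fun e => ?_⟩
  · have := cyc_mul hn a e
    rw [mul_inv_cancel_left, mul_one] at this
    exact (Uy.cyc_congr hn a).2 (dvd_sub_comm.1 ((Uy.cyc_congr hn b).1 this))
  · obtain ⟨j, c⟩ := Uy.ex_cyc hn g⁻¹
    exact (Uy.cyc_congr hn (cyc_mul hn c b)).2 (dvd_sub_comm.1 (mul_comm l j ▸ cyc_inv hn e c))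

theorem cyc_sur (hn : 0 < n) (c : IsCoprime k (n : ℤ)) : ∃ g, Cyc n g k := by
  have : NeZero n := ⟨hn.ne'⟩
  have n0 : (n : ℚ) ≠ 0 := Nat.cast_ne_zero.2 hn.ne'
  have p : IsPrimitiveRoot (E (1 / n)) n := .mk_of_lt _ hn
    (by rw [← E_nat, mul_one_div_cancel n0, ← Int.cast_one, E_int]) fun l a b e => by
      rw [← E_nat, E_eq_one] at e
      obtain ⟨c, e⟩ := e
      rw [mul_one_div, div_eq_iff n0] at e
      exact (Nat.le_of_dvd a (Int.natCast_dvd_natCast.1 ⟨c, by rw [mul_comm]; exact_mod_cast e⟩)).not_gt b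
  have q := p.zpow_of_gcd_eq_one k (Int.isCoprime_iff_gcd_eq_one.1 c)
  have i := Polynomial.cyclotomic.irreducible_rat hn
  obtain ⟨g, e⟩ := minpoly.exists_algEquiv_of_root' (K := ℚ) (L := Qb) (x := E (1 / n) ^ k)
    (Algebra.IsAlgebraic.isAlgebraic (E (1 / n))) (by
      rw [← p.minpoly_eq_cyclotomic_of_irreducible i, q.minpoly_eq_cyclotomic_of_irreducible i,
        minpoly.aeval])
  exact ⟨g, Uy.cyc_iff.2 (by rw [e, ← E_zpow, mul_one_div])⟩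

end

variable {X : Mdl} {Ξ C : Type} [AddCommGroup Ξ] [DistribMulAction Au Ξ] [AddCommGroup C] {m : ℕ}
  {Cu : AddSubgroup Ξ} {σ : GQ →* AddMonoid.End C} {Z : Subgroup SL(2, ℤ) → Ξ → FF → FF → C}
  {Γ Γ' : Subgroup SL(2, ℤ)} {ξ : Ξ} {u v : FF} {c d k : ℕ} {w w' : Fin 2 → ℤ} {A B Y Y' : M2}

theorem comm (X : Mdl) (hA : 0 < A.det) : ∀ h ∈ Ha, gA X h * pA X A hA = pA X A hA * gA X h :=
  fun h m => Subtype.ext (RingEquiv.ext fun x => Uy.gal_pb_ha X hA m x)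

theorem sw (X : Mdl) (hA : 0 < A.det) (hB : 0 < B.det) {γ g : SL(2, ℤ)}
    (e : A * (γ : M2) = (g : M2) * B) (ξ : Ξ) :
    pS X γ • pA X A hA • ξ = pA X B hB • pS X g • ξ := by
  rw [← mul_smul, ← mul_smul]
  exact congrArg (· • ξ) (Subtype.ext (RingEquiv.ext fun x => pg_pb X hA hB e x))

theorem xi_mono (h : Xi X Cu Γ ξ) (le : Γ' ≤ Γ) : Xi X Cu Γ' ξ :=
  ⟨h.cu, fun γ m => h.inv γ (le m), h.fix⟩

theorem un_mono (h : Un X Γ u) (le : Γ' ≤ Γ) : Un X Γ' u := ⟨L_mono le h.mem, h.hol, h.fix⟩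

theorem ok_mono (h : Ok X Cu Γ ξ u v) (le : Γ' ≤ Γ) (l : Lev Γ') : Ok X Cu Γ' ξ u v :=
  ⟨l, xi_mono h.xi le, un_mono h.u1 le, un_mono h.u2 le⟩

theorem xi_pA (R : Ru X m Cu σ Z) (h : Xi X Cu Γ ξ) (hA : 0 < A.det) (j : Cj A Γ Γ') :
    Xi X Cu Γ' (pA X A hA • ξ) :=
  ⟨R.cu A hA ξ h.cu, fun γ a => (j γ a).elim fun g b => by rw [sw X hA hA b.2, h.inv g b.1],
    fun g a => by rw [← mul_smul, comm X hA g a, mul_smul, h.fix g a]⟩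

theorem xi_sum {ι : Type} (s : Finset ι) {f : ι → Ξ} (h : ∀ i, Xi X Cu Γ (f i)) :
    Xi X Cu Γ (∑ i ∈ s, f i) :=
  ⟨sum_mem fun i _ => (h i).cu, fun γ a => by rw [smul_sum, sum_congr rfl fun i _ => (h i).inv γ a],
    fun γ a => by rw [smul_sum, sum_congr rfl fun i _ => (h i).fix γ a]⟩

theorem un_prod {ι : Type} (s : Finset ι) {f : ι → FF} (h : ∀ i, Un X Γ (f i)) :
    Un X Γ (∏ i ∈ s, f i) := by
  choose g hg e using fun i => (h i).hol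
  exact ⟨prod_mem fun i _ => (h i).mem, ⟨∏ i ∈ s, g i, prod_mem fun i _ => hg i, by
    rw [map_prod, inc_prod s g hg, prod_congr rfl fun i _ => (e i).1], fun τ => by
      rw [Finset.prod_apply]
      exact prod_ne_zero_iff.2 fun i _ => (e i).2 τ⟩,
    fun γ a => by rw [map_prod, prod_congr rfl fun i _ => (h i).fix γ a]⟩

theorem z_sum (R : Ru X m Cu σ Z) {ι : Type} (s : Finset ι) {f : ι → Ξ} (h : ∀ i, Xi X Cu Γ (f i))
    (l : Lev Γ) (a : Un X Γ u) (b : Un X Γ v) : Z Γ (∑ i ∈ s, f i) u v = ∑ i ∈ s, Z Γ (f i) u v := by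
  classical
  induction s using Finset.induction_on with
  | empty => simpa using R.add Γ _ _ u v ⟨l, xi_sum ∅ h, a, b⟩ (xi_sum ∅ h)
  | insert i s hi ih => rw [sum_insert hi, sum_insert hi, R.add Γ _ _ u v ⟨l, h i, a, b⟩ (xi_sum s h), ih]

theorem z_smul (R : Ru X m Cu σ Z) (o : Ok X Cu Γ ξ u v) (a : ℤ) :
    Z Γ (a • ξ) u v = a • Z Γ ξ u v := by
  have x (b : ℤ) : Xi X Cu Γ (b • ξ) := ⟨zsmul_mem o.xi.cu b,
    fun γ h => by rw [smul_comm, o.xi.inv γ h], fun γ h => by rw [smul_comm, o.xi.fix γ h]⟩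
  have e (b : ℤ) : Z Γ ((b + 1) • ξ) u v = Z Γ (b • ξ) u v + Z Γ ξ u v := by
    rw [add_smul, one_smul, R.add Γ _ _ u v ⟨o.lev, x b, o.u1, o.u2⟩ o.xi]
  induction a using Int.induction_on with
  | zero => simpa using e 0
  | succ i ih => rw [e, ih, add_smul, one_smul]
  | pred i ih => rw [sub_smul _ _ (Z _ _ _ _), one_smul, ← ih, eq_sub_iff_add_eq, ← e, sub_add_cancel]

theorem z_prod (R : Ru X m Cu σ Z) {ι : Type} (s : Finset ι) {f : ι → FF} (h : ∀ i, Un X Γ (f i))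
    (l : Lev Γ) (a : Xi X Cu Γ ξ) (b : Un X Γ v) :
    Z Γ ξ (∏ i ∈ s, f i) v = ∑ i ∈ s, Z Γ ξ (f i) v := by
  classical
  induction s using Finset.induction_on with
  | empty => simpa using R.ml Γ ξ _ _ v ⟨l, a, un_prod ∅ h, b⟩ (un_prod ∅ h)
  | insert i s hi ih => rw [prod_insert hi, sum_insert hi, R.ml Γ ξ _ _ v ⟨l, a, h i, b⟩ (un_prod s h), ih]

theorem z_prod' (R : Ru X m Cu σ Z) {ι : Type} (s : Finset ι) {f : ι → FF} (h : ∀ i, Un X Γ (f i))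
    (l : Lev Γ) (a : Xi X Cu Γ ξ) (b : Un X Γ v) :
    Z Γ ξ v (∏ i ∈ s, f i) = ∑ i ∈ s, Z Γ ξ v (f i) := by
  rw [R.skew Γ ξ _ v ⟨l, a, un_prod s h, b⟩, z_prod R s h l a b, ← sum_neg_distrib]
  exact sum_congr rfl fun i _ => (R.skew Γ ξ _ v ⟨l, a, h i, b⟩).symm

theorem z_idx (R : Ru X m Cu σ Z) (o : Ok X Cu Γ ξ u v) (le : Γ' ≤ Γ) (l : Lev Γ') {ι : Type}
    [Fintype ι] {r : ι → SL(2, ℤ)} (h : Reps Γ Γ' r) :
    Z Γ' ξ u v = Fintype.card ι • Z Γ ξ u v := by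
  rw [R.res Γ Γ' ξ u v ι r le h o.lev o.u1 o.u2 (ok_mono o le l),
    sum_congr rfl fun i _ => o.xi.inv _ (h.mem i), z_sum R _ (fun _ => o.xi) o.lev o.u1 o.u2,
    sum_const, card_univ]

theorem nz_iff (hk : 0 < k) : Nz c (vL k w) ↔ ¬ ∀ i, (k : ℤ) ∣ c * w i := by
  have : (k : ℚ) ≠ 0 := Nat.cast_ne_zero.2 hk.ne'
  refine not_congr (forall_congr' fun i => exists_congr fun x => ?_)
  rw [vL, ← mul_div_assoc, div_eq_iff this, mul_comm (x : ℚ)]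
  norm_cast

theorem un_sF (hc : c ^ 2 % 24 = 1) (hk : 0 < k) (n : Nz c (vL k w)) :
    Un X (Gamma k) (sF c (vL k w)) := by
  have a : ∀ i, ∃ j : ℤ, k * vL k w i = j :=
    fun i => ⟨w i, mul_div_cancel₀ _ (Nat.cast_ne_zero.2 hk.ne')⟩
  refine ⟨sF_Gamma hc n a, ⟨_, hol n, cv_sF hc n, sg_ne n⟩, fun h m => ?_⟩
  have e : vL k w = ![vL k w 0, vL k w 1] := funext (Fin.forall_fin_two.2 ⟨rfl, rfl⟩)
  rw [e] at n a ⊢
  rw [sF_gal hc X n hk a (Uy.cyc_ha hk m), Int.cast_one, one_mul]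

theorem sF_cv (hc : c ^ 2 % 24 = 1) (hk : 0 < k) (h : Cv k w w') : sF c (vL k w) = sF c (vL k w') :=
  sF_congr hc fun i => (h i).imp fun x e => by
    have : (k : ℚ) ≠ 0 := Nat.cast_ne_zero.2 hk.ne'
    rw [vL, vL, sub_eq_iff_eq_add'.1 e]
    push_cast
    field_simp

theorem vg_vL (γ : M2) : vg (vL k w) γ = vL k (w ᵥ* γ) := funext fun j => by
  simp [vg, vL, vecMul, dotProduct, Fin.sum_univ_two]
  ring

theorem lev_Ga (hk : 0 < k) (h4 : 4 ∣ k) : Lev (Gamma k) := ⟨⟨k, hk, le_rfl⟩, fun γ m => by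
  have := (Gamma_mem).1 (Ga_le h4 m)
  exact (Gamma1_mem 4 γ).2 ⟨this.1, this.2.2.2, this.2.2.1⟩⟩

theorem cj_Ga (k : ℕ) (γ : SL(2, ℤ)) : Cj γ (Gamma k) (Gamma k) := fun δ h =>
  ⟨γ * δ * γ⁻¹, (Gamma_normal k).conj_mem δ h γ,
    congrArg Subtype.val (show γ * δ = γ * δ * γ⁻¹ * γ by group)⟩

/-- the data of level `k` -/
structure Lv (c d k : ℕ) (Y : M2) : Prop where
  hc : c ^ 2 % 24 = 1
  hd : d ^ 2 % 24 = 1
  pos : 0 < k
  four : 4 ∣ k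
  n0 : Nz c (vL k (Y 0))
  n1 : Nz d (vL k (Y 1))

theorem Lv.ok (y : Lv c d k Y) (x : Xi X Cu (Gamma k) ξ) :
    Ok X Cu (Gamma k) ξ (sF c (vL k (Y 0))) (sF d (vL k (Y 1))) :=
  ⟨lev_Ga y.pos y.four, x, un_sF y.hc y.pos y.n0, un_sF y.hd y.pos y.n1⟩

/-- **transport by `γ`** -/
theorem Lv.conj (R : Ru X m Cu σ Z) (y : Lv c d k Y) (x : Xi X Cu (Gamma k) ξ) (γ : SL(2, ℤ))
    (h : Cg k Y' (Y * γ)) : ZL Z (pS X γ • ξ) c d k Y' = ZL Z ξ c d k Y := by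
  rw [ZL, ZL, sF_cv y.hc y.pos (h 0), sF_cv y.hd y.pos (h 1), row_mul, row_mul, ← vg_vL, ← vg_vL,
    ← sF_pg y.hc X y.n0, ← sF_pg y.hd X y.n1]
  exact R.conj _ _ ξ _ _ γ (SL_pos γ) (cj_Ga k γ) (fun g a => ⟨γ⁻¹ * g * γ,
    (Gamma_normal k).conj_mem' g a γ,
      congrArg Subtype.val (show γ * (γ⁻¹ * g * γ) = g * γ by group)⟩) (comm X _) (y.ok x) (lev_Ga y.pos y.four)

end Vale.Agent.P014T.Pm
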