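import Mathlib

/-! # P014T, block PRIM: the combinatorial core (helper62) -/

set_option linter.all false

open Finset

namespace Vale.Agent.P014T.Pm

variable {F C : Type} [Field F] [Fintype F] [DecidableEq F] [AddCommGroup C]

theorem sum_bas {x y : Fin 2 → F} (h : x 0 * y 1 - x 1 * y 0 ≠ 0) (f : (Fin 2 → F) → C) :
    ∑ v, f v = ∑ a : F, ∑ c : F, f (a • x + c • y) := by
  rw [← Fintype.sum_prod_type' fun a c => f (a • x + c • y)]
  refine (Fintype.sum_bijective (fun z : F × F => z.1 • x + z.2 • y) ?_ _ _ fun _ => rfl).symm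
  refine (Fintype.bijective_iff_injective_and_card _).2 ⟨fun z w e => ?_, by simp [sq]⟩
  have a := congrFun e 0
  have b := congrFun e 1
  simp only [Pi.add_apply, Pi.smul_apply, smul_eq_mul] at a b
  exact Prod.ext (mul_right_cancel₀ h (by linear_combination y 1 * a - y 0 * b))
    (mul_right_cancel₀ h (by linear_combination x 0 * b - x 1 * a))

/-- the columns are `x` and `y` -/
theorem core {g0 g1 : (Fin 2 → F) → (Fin 2 → F) → C} {a : ℤ} {x y : Fin 2 → F}
    (h : x 0 * y 1 - x 1 * y 0 ≠ 0) (B : ∀ u v (c : F), g1 (u + c • v) v = g1 u v)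
    (U : ∀ u v, ∑ j : F, g1 u (v + j • u) = a • g0 u v)
    (D : ∀ u v (j : F), g0 u (v + j • u) = g0 u v) :
    ∑ b : F, ∑ u, g1 u (y + b • x) = a • (∑ b : F, g0 0 (y + b • x) +
      Fintype.card F • ∑ k ∈ univ.erase (0 : F), g0 (k • x) y) := by
  have e1 (b : F) : ∑ u, g1 u (y + b • x) = Fintype.card F • ∑ k : F, g1 (k • x) (y + b • x) := by
    rw [sum_bas (x := x) (y := y + b • x) (by
      simp only [Pi.add_apply, Pi.smul_apply, smul_eq_mul]
      exact fun e => h (by linear_combination e))]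
    simp only [B, sum_const, card_univ, smul_sum]
  have e2 (k : F) : a • ∑ b : F, g0 (k • x) (y + b • x) =
      Fintype.card F • ∑ b : F, g1 (k • x) (y + b • x) := by
    simp only [smul_sum, ← U]
    rw [sum_comm, ← smul_sum, ← card_univ, ← sum_const]
    refine sum_congr rfl fun j _ => Fintype.sum_equiv (Equiv.addRight (j * k)) _ _ fun b => ?_
    rw [Equiv.coe_addRight, add_smul, mul_smul, add_assoc]
  have e3 (k : F) (hk : k ∈ univ.erase (0 : F)) : ∑ b : F, g0 (k • x) (y + b • x) =
      Fintype.card F • g0 (k • x) y := by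
    rw [← card_univ, ← sum_const]
    refine sum_congr rfl fun b _ => ?_
    rw [← D (k • x) y (b / k), smul_smul, div_mul_cancel₀ _ (mem_erase.1 hk).1]
  simp only [e1]
  rw [← smul_sum, sum_comm, smul_sum, ← sum_congr rfl fun k _ => e2 k, ← smul_sum,
    ← add_sum_erase _ _ (mem_univ (0 : F)), zero_smul, sum_congr rfl e3, smul_sum]

end Vale.Agent.P014T.Pm
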