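import Vale.Agent.P014T.Pm.Rel

/-! # P014T, block PRIM: the exact relation for several primes (helper62) -/

set_option linter.all false

open UpperHalfPlane CongruenceSubgroup Matrix Finset NumberField
open scoped MatrixGroups

noncomputable section

namespace Vale.Agent.P014T.Pm

open Vale.Agent.P022 H218.L3 H231.L3 P027M.M P027M.M.Dp P022K.QT.Cu
open Dr (Hm Ha Tv Hm_le Ha_le Hm_open Zn Co Ch aa am cor ch_iff)
open Sg Nr

variable {X : Mdl} {Ξ C : Type} [AddCommGroup Ξ] [DistribMulAction Au Ξ] [AddCommGroup C] {m : ℕ}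
  {Cu : AddSubgroup Ξ} {σ : GQ →* AddMonoid.End C} {Z : Subgroup SL(2, ℤ) → Ξ → FF → FF → C}
  {ξ : Ξ} {c d n p k D N : ℕ} {A : M2} {T : Finset GQ}

/-- representatives for a disjoint extension -/
theorem tv_cop (k0 : 0 < k) (D0 : 0 < D) (nk : n ∣ k) (cp : D.Coprime k)
    (t : Tv (Hm (n * D)) (Hm (k * D)) T) : Tv (Hm n) (Hm k) T := by
  refine ⟨fun s m => Hm_le (dvd_mul_right n D) (t.1 s m), fun g hg => ?_⟩
  have n0 := Nat.pos_of_dvd_of_pos nk k0
  have kD := Nat.mul_pos k0 D0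
  have cp' : IsCoprime (k : ℤ) D := Nat.isCoprime_iff_coprime.2 cp.symm
  obtain ⟨j, hj⟩ := Uy.ex_cyc k0 g
  obtain ⟨a, b, e⟩ := id cp'
  have e1 : (k : ℤ) ∣ a * k + j * b * D - j := ⟨a - j * a, by linear_combination j * e⟩
  have e2 : (D : ℤ) ∣ a * k + j * b * D - 1 := ⟨j * b - b, by linear_combination e⟩
  generalize a * k + j * b * D = y at e1 e2
  obtain ⟨g', h'⟩ := cyc_sur kD (k := y) (by
    obtain ⟨u, e1⟩ := e1
    obtain ⟨v, e2⟩ := e2
    rw [Nat.cast_mul]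
    exact IsCoprime.mul_right (sub_eq_iff_eq_add'.1 e1 ▸ (Uy.Cyc.cop k0 hj).add_mul_left_left u)
      (sub_eq_iff_eq_add'.1 e2 ▸ isCoprime_one_left.add_mul_left_left v))
  have nk' := Int.natCast_dvd_natCast.2 nk
  have e3 := (Uy.cyc_congr n0 ((Uy.cyc_hm n0).2 hg)).1 (Uy.cyc_dvd k0 nk hj)
  have m : g' ∈ Hm (n * D) := (Uy.cyc_hm (Nat.mul_pos n0 D0)).1
    ((Uy.cyc_congr (Nat.mul_pos n0 D0) (Uy.cyc_dvd kD (Nat.mul_dvd_mul_right nk D) h')).2 (by
      rw [Nat.cast_mul, dvd_sub_comm]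
      exact (cp'.of_isCoprime_of_dvd_left nk').mul_dvd (by simpa using (nk'.trans e1).add e3) e2))
  refine (existsUnique_congr fun s => and_congr_right fun hs => ?_).1 (t.2 g' m)
  obtain ⟨i, hi⟩ := Uy.ex_cyc kD s
  have e4 := (Uy.cyc_congr D0 ((Uy.cyc_hm D0).2 (Hm_le (dvd_mul_left D n) (t.1 s hs)))).1
    (Uy.cyc_dvd kD (dvd_mul_left D k) hi)
  rw [cyc_rel kD hi h', cyc_rel k0 (Uy.cyc_dvd kD (dvd_mul_right k D) hi) hj, Nat.cast_mul]
  exact ⟨fun f => by simpa using ((dvd_mul_right _ _).trans f).sub e1,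
    fun f => cp'.mul_dvd (by simpa using e1.add f) (by simpa using e2.sub e4)⟩

/-- the product of the Euler factors, normalised -/
def ex (a : ℕ → ℤ) (φ : ℕ → GQ) (l : List ℕ) : Gz :=
  (l.map fun p : ℕ => ((a p * p : ℤ) : Gz) - MonoidAlgebra.of ℤ GQ (φ p)⁻¹).prod

theorem ev_ex {R : Type} [CommRing R] (Ψ : GQ →* R) (a : ℕ → ℤ) (φ : ℕ → GQ) (l : List ℕ) :
    ev Ψ (ex a φ l) = (l.map fun p : ℕ => ((a p * p : ℤ) : R) - Ψ (φ p)).prod := by
  rw [ex, map_list_prod, List.map_map]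
  refine congrArg _ (List.map_congr_left fun p _ => ?_)
  rw [Function.comp, map_sub, map_intCast, ev_of, inv_inv]

/-- **several primes, exact form** -/
theorem primX (R : Ru X m Cu σ Z) (hD : DET X m Cu σ Z) {a : ℕ → ℤ} {φ : ℕ → GQ} (l : List ℕ)
    (nd : l.Nodup) (hk : k = n * l.prod) (x : Cx X m Cu ξ N c d k A) (y : Lv c d n A) (mn : m ∣ n)
    (h : ∀ p ∈ l, p.Prime ∧ ¬ p ∣ n ∧ p.Coprime (c * d) ∧ ¬ (p : ℤ) ∣ A.det ∧
      (Uk X ξ p (a p) ∧ a p ^ 2 = 1) ∧ ∀ j, ¬ p ∣ j → Cyc j (φ p) p) (t : Tv (Hm n) (Hm k) T) :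
    l.prod ^ 2 • ∑ s ∈ T, σ s (ZL Z ξ c d k A) = op σ (ex a φ l) (ZP Z ξ c d k l.prod A) := by
  induction l generalizing n A T with
  | nil =>
    obtain rfl : k = n := by simpa using hk
    rw [s_tow (fun h => fix_z R hD x) le_rfl le_rfl t (tv_one _) (tv_one _)]
    simp [ex, ZP, ← one_fin_two]
  | cons p l ih =>
    obtain ⟨hp, pn, pc, pA', ⟨hU, a2⟩, hφ⟩ := h p (by simp)
    rw [List.nodup_cons] at nd
    have h' := fun q hq => h q (List.mem_cons_of_mem p hq)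
    have ne q (hq : q ∈ l) : ¬ q ∣ p := fun e =>
      nd.1 ((Nat.prime_dvd_prime_iff_eq (h' q hq).1 hp).1 e ▸ hq)
    have pl : ¬ p ∣ n * l.prod := fun e => (hp.dvd_mul.1 e).elim pn fun e =>
      let ⟨q, hq, e⟩ := (Prime.dvd_prod_iff hp.prime).1 e
      ne q hq ((Nat.prime_dvd_prime_iff_eq hp (h' q hq).1).1 e ▸ dvd_rfl)
    have l0 : 0 < l.prod := List.prod_pos fun q hq => (h' q hq).1.pos
    have pn' : IsCoprime (p : ℤ) n := Nat.isCoprime_iff_coprime.2 ((hp.coprime_iff_not_dvd).2 pn)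
    obtain rfl : k = n * l.prod * p := by rw [hk, List.prod_cons]; ring
    have l1 : Hm (n * l.prod) ≤ Hm n := Hm_le (dvd_mul_right _ _)
    have l2 : Hm (n * l.prod * p) ≤ Hm (n * l.prod) := Hm_le (dvd_mul_right _ _)
    obtain ⟨U, u⟩ := ex_tv (Hm_open x.pos.ne') (Hm_le (Nat.mul_dvd_mul_right (dvd_mul_right n l.prod) p))
    obtain ⟨V, v⟩ := ex_tv (Hm_open x.pos.ne') l2
    have e := prim R hD x (y.up l0 (G := 1) (by simpa using Cg.rfl) (by simpa using isCoprime_one_left))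
      hp pl (mn.mul_right _) pc pA' hU (hφ _ pl) v
    have xb (b : ℕ) := cx x (hk ▸ y.up (G := !![(p : ℤ), b; 0, 1]) (List.prod_pos fun q hq => (h q hq).1.pos)
      Cg.rfl (by simpa using pn'))
    have i (b : ℕ) := ih (n := n * p) nd.2 (by ring) (xb b)
      (y.up hp.pos Cg.rfl (by simpa using pn')) (mn.mul_right _) (fun q hq =>
        let ⟨a1, a2, a3, a4, a5⟩ := h' q hq
        ⟨a1, fun e => (a1.dvd_mul.1 e).elim a2 (ne q hq), a3, fun e => by
          rw [det_mul] at e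
          exact ((Nat.prime_iff_prime_int.1 a1).dvd_or_dvd e).elim a4 fun e =>
            ne q hq (Int.natCast_dvd_natCast.1 (by simpa using e)), a5⟩) u
    have z : ZP Z ξ c d (n * l.prod * p) (p :: l).prod A =
        ∑ b ∈ range p, ZP Z ξ c d (n * l.prod * p) l.prod (A * !![(p : ℤ), b; 0, 1]) := by
      rw [List.prod_cons, ZP, sum_mul_range]
      refine sum_congr rfl fun b _ => sum_congr rfl fun j _ => congrArg _ ?_
      rw [Matrix.mul_assoc]
      simp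
    have f (h) (hh : h ∈ Ha) : σ h (∑ b ∈ range p, ZL Z ξ c d _ (A * !![(p : ℤ), b; 0, 1])) = _ :=
      (map_sum _ _ _).trans (sum_congr rfl fun b _ => fix_z R hD (xb b) (Ha_le x.pos.ne' hh))
    have j : l.prod ^ 2 • ∑ s ∈ U, σ s (∑ b ∈ range p, ZL Z ξ c d (n * l.prod * p) (A * !![(p : ℤ), b; 0, 1])) =
        op σ (ex a φ l) (ZP Z ξ c d (n * l.prod * p) (p :: l).prod A) := by
      rw [z, map_sum, ← sum_congr rfl fun b _ => i b, ← smul_sum, sum_comm]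
      simp only [map_sum]
    rw [s_tow (fun h => fix_z R hD x) l1 l2 t (tv_cop (Nat.mul_pos y.pos l0) hp.pos (dvd_mul_right _ _)
      ((hp.coprime_iff_not_dvd).2 pl) u) v, ex, List.map_cons, List.prod_cons (l := l.map _), map_mul,
      AddMonoid.End.coe_mul, Function.comp_apply, ← ex, ← j, map_sub, op_of]
    generalize ∑ b ∈ range p, ZL Z ξ c d (n * l.prod * p) (A * !![(p : ℤ), b; 0, 1]) = Q at *
    generalize ∑ s ∈ V, σ s (ZL Z ξ c d (n * l.prod * p) A) = W at *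
    have e' : p ^ 2 • W = (a p * p) • Q - σ (φ p)⁻¹ Q := by
      linear_combination (norm := module) a p • e - a2 • (σ (φ p)⁻¹ Q + p ^ 2 • W)
    change _ = op σ _ _ - σ _ _
    rw [op_int, List.prod_cons, mul_pow, mul_comm (p ^ 2), mul_smul, smul_sum (r := p ^ 2)]
    simp only [← map_nsmul (σ _) (p ^ 2), e']
    simp only [map_sub, map_zsmul, map_nsmul, sum_sub_distrib, ← smul_sum, fun s => s_comm f s (φ p)⁻¹,
      ← map_sum]
    module

variable {r : ℕ} {ρ : GQ →* P004F.M2 (Zn r)} {B : Type} [CommRing B] {ι : Zn r →+* B} {Ψ : GQ →* B}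
  {y y' : GQ → Fin 2 → Zn r} {H K K' : Subgroup GQ} {T' : Finset GQ} {e e' : Gz}

/-- **transport on `Ha`** -/
theorem rel0 [H.Normal] [K.Normal] [K'.Normal] (c : ∀ g ∈ H, Ψ g = 1) (o : IsOpen (K : Set GQ))
    (o' : IsOpen (K' : Set GQ)) (l : Ha ≤ K) (l' : Ha ≤ K') (n : K ≤ H) (n' : K' ≤ H) (co : Co K ρ y)
    (co' : Co K' ρ y') (t : Tv H K T) (t' : Tv H K' T')
    (h : op (sg ρ) e (∑ s ∈ T, sg ρ s (cl ρ y)) = op (sg ρ) e' (∑ s ∈ T', sg ρ s (cl ρ y'))) :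
    Ch Ha (aa ρ ι Ψ) (ev Ψ e • cor ρ ι Ψ K y) (ev Ψ e' • cor ρ ι Ψ K' y') := by
  have := P022K.G2.cpt
  have := H.quotient_finite_of_isOpen (Subgroup.isOpen_mono n o)
  have := Fintype.ofFinite (GQ ⧸ H)
  have h0 g (m : g ∈ Ha) := c g (n (l m))
  exact ch_iff.2 ((tc_tr h0 c o l n co t e).symm.trans (h ▸ tc_tr h0 c o' l' n' co' t' e'))

theorem odd_cancel {x x' : Cl ρ} (o : Odd k) (h : k • x = k • x') : x = x' := by
  obtain ⟨u, v, e⟩ : IsCoprime (k : ℤ) (2 ^ r : ℕ) :=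
    Nat.isCoprime_iff_coprime.2 ((Nat.coprime_two_right.2 o).pow_right _)
  have t (x : Cl ρ) : x = u • k • x := by
    obtain ⟨y, rfl⟩ := cl_sur ρ x
    have : 2 ^ r • y = 0 := by
      rw [← Nat.cast_smul_eq_nsmul (Zn r), ZMod.natCast_self, zero_smul]
    rw [← natCast_zsmul, smul_smul, eq_sub_of_add_eq e, sub_smul, one_smul, mul_smul, natCast_zsmul,
      ← map_nsmul, this, map_zero, smul_zero, sub_zero]
  rw [t x, h, ← t]

end Vale.Agent.P014T.Pm
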