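import Vale.Agent.P014T.Pm.Pr
import Vale.Agent.P014T.Nr.Cor

/-! # P014T, block PRIM: several primes (helper62) -/

set_option linter.all false

open UpperHalfPlane CongruenceSubgroup Matrix Finset NumberField
open scoped MatrixGroups

noncomputable section

namespace Vale.Agent.P014T.Pm

open Vale.Agent.P022 H218.L3 H231.L3 P027M.M P027M.M.Dp P022K.QT.Cu
open Vale.Agent.P022E.GW (Ov Fb)
open Dr (Hm Ha Tv Hm_le Ha_le Hm_open)
open Sg Nr

variable {X : Mdl} {Ξ C : Type} [AddCommGroup Ξ] [DistribMulAction Au Ξ] [AddCommGroup C] {m : ℕ}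
  {Cu : AddSubgroup Ξ} {σ : GQ →* AddMonoid.End C} {Z : Subgroup SL(2, ℤ) → Ξ → FF → FF → C}
  {ξ : Ξ} {c d n p k M N : ℕ} {A : M2} {T : Finset GQ}

/-- the group ring -/
abbrev Gz : Type := MonoidAlgebra ℤ GQ

/-- the action of the group ring -/
def op (σ : GQ →* AddMonoid.End C) : Gz →ₐ[ℤ] AddMonoid.End C := MonoidAlgebra.lift ℤ _ GQ σ

theorem op_of (g : GQ) : op σ (MonoidAlgebra.of ℤ GQ g) = σ g := MonoidAlgebra.lift_of _ _

theorem cyc_fb {P : Ideal (𝓞 Qb)} {φ : GQ} (o : Ov p P) (f : Fb p P φ) (h : ¬ p ∣ n) : Cyc n φ p := by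
  have n0 : (n : ℚ) ≠ 0 := Nat.cast_ne_zero.2 fun e => h (e ▸ dvd_zero p)
  rw [Uy.cyc_iff, Dr.root_cong o h f (z := E (1 / n))
    (by rw [← E_nat, mul_one_div_cancel n0, ← Int.cast_one, E_int]), ← E_nat, mul_one_div, Int.cast_natCast]

theorem s_mul (s t : GQ) (x : C) : σ (s * t) x = σ s (σ t x) := by rw [map_mul]; rfl

theorem s_comm {x : C} (f : ∀ h ∈ Ha, σ h x = x) (s t : GQ) : σ s (σ t x) = σ t (σ s x) := by
  rw [← s_mul, show s * t = t * s * (s⁻¹ * t⁻¹ * s⁻¹⁻¹ * t⁻¹⁻¹) by group, s_mul, f _ (comm_Ha _ _), s_mul]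

theorem s_tow {x : C} {Γ H K : Subgroup GQ} {U T' : Finset GQ} (f : ∀ h ∈ K, σ h x = x) (l1 : H ≤ Γ)
    (l2 : K ≤ H) (t : Tv Γ K T) (t1 : Tv Γ H U) (t2 : Tv H K T') :
    ∑ s ∈ T, σ s x = ∑ u ∈ U, σ u (∑ s ∈ T', σ s x) := by
  rw [(tv_fr ℤ t (l2.trans l1)).tow (tv_fr ℤ t1 l1) (tv_fr ℤ t2 l2) (p := fun s => σ s x)
    fun u _ h hh => by rw [s_mul, f h hh]]
  simp only [map_sum, s_mul]

/-- the primitive classes are defined over the small field -/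
theorem fix_q (R : Ru X m Cu σ Z) (hD : DET X m Cu σ Z) (x : Cx X m Cu ξ N c d (n * p) A) (n0 : 0 < n)
    (mn : m ∣ n) (h0 : ∀ i, (p : ℤ) ∣ A i 0) {h : GQ} (hh : h ∈ Hm n) :
    σ h (ZL Z ξ c d (n * p) A) = ZL Z ξ c d (n * p) A := by
  obtain ⟨k, hk⟩ := Uy.ex_cyc x.pos h
  have e := (Uy.cyc_congr n0 ((Uy.cyc_hm n0).2 hh)).1 (Uy.cyc_dvd x.pos (dvd_mul_right _ _) hk)
  have t := R.tor _ _ _ _ ((⟨x.hc, x.hd, x.pos, x.four, x.n0, x.n1⟩ : Lv c d _ A).ok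
    (xi_mono ⟨x.cu, x.inv, fun h _ => x.fix h⟩ (Ga_G0 x.nd)))
  have := hD ξ N c d _ A x !![k, 0; 0, 1] A h k hk (by simp) (by simp) fun i =>
    Fin.forall_fin_two.2 ⟨by
      rw [Nat.cast_mul]
      exact (mul_dvd_mul e (h0 i)).neg_right.trans (dvd_of_eq (by simp [mm]; ring)), by simp [mm]⟩
  rw [tor_eq (by rw [← map_nsmul, ZL, t, map_zero]) ((Int.natCast_dvd_natCast.2 mn).trans e)] at this
  exact this.symm

theorem fix_z (R : Ru X m Cu σ Z) (hD : DET X m Cu σ Z) (x : Cx X m Cu ξ N c d k A) {h : GQ}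
    (hh : h ∈ Hm k) : σ h (ZL Z ξ c d k A) = ZL Z ξ c d k A := by
  simpa using fix_q (p := 1) R hD (by simpa using x) x.pos x.md (by simp) hh

/-- one prime, the full norm on both sides -/
theorem primN (R : Ru X m Cu σ Z) (hD : DET X m Cu σ Z) (hk : k = n * p) (x : Cx X m Cu ξ N c d k A)
    (y : Lv c d n A) (hp : p.Prime) (pn : ¬ p ∣ n) (mn : m ∣ n) (Mn : M ∣ n) (pc : p.Coprime (c * d))
    (pA' : ¬ (p : ℤ) ∣ A.det) {a : ℤ} (hU : Uk X ξ p a) {φ : GQ} (hφ : Cyc n φ p)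
    (t : Tv (Hm M) (Hm k) T) :
    ((p - 1) * a * p ^ 2 : ℤ) • ∑ s ∈ T, σ s (ZL Z ξ c d k A) =
      op σ (p - a • MonoidAlgebra.of ℤ GQ φ⁻¹)
        (∑ s ∈ T, σ s (∑ b ∈ range p, ZL Z ξ c d k (A * !![(p : ℤ), b; 0, 1]))) := by
  subst hk
  have := Fact.mk hp
  have pn' : IsCoprime (p : ℤ) n := Nat.isCoprime_iff_coprime.2 ((hp.coprime_iff_not_dvd).2 pn)
  have l1 := Hm_le Mn
  have l2 : Hm (n * p) ≤ Hm n := Hm_le (dvd_mul_right _ _)
  obtain ⟨U, u⟩ := ex_tv (Hm_open y.pos.ne') l1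
  obtain ⟨V, v⟩ := ex_tv (Hm_open x.pos.ne') l2
  have e := prim R hD x y hp pn mn pc pA' hU hφ v
  have f (h) (hh : h ∈ Hm n) : σ h (∑ b ∈ range p, ZL Z ξ c d (n * p) (A * !![(p : ℤ), b; 0, 1])) =
      ∑ b ∈ range p, ZL Z ξ c d (n * p) (A * !![(p : ℤ), b; 0, 1]) := by
    rw [map_sum]
    exact sum_congr rfl fun b _ => fix_q R hD (cx x (y.up hp.pos Cg.rfl (by simpa using pn'))) y.pos mn
      (fun i => by simp [mm]) hh
  generalize ∑ b ∈ range p, ZL Z ξ c d (n * p) (A * !![(p : ℤ), b; 0, 1]) = Q at *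
  have q : ∑ s ∈ V, σ s Q = (p - 1 : ℤ) • Q := by
    rw [sum_tv y.pos pn' v (g := fun _ => Q) fun s k a b => f s ((Uy.cyc_hm y.pos).1
      ((Uy.cyc_congr y.pos (Uy.cyc_dvd x.pos (dvd_mul_right _ _) a)).2 (dvd_sub_comm.1 b))),
      sum_const, card_erase_of_mem (mem_univ _), card_univ, ZMod.card, ← natCast_zsmul,
      Nat.cast_pred hp.pos]
  rw [s_tow (fun h => fix_z R hD x) l1 l2 t u v, s_tow (fun h a => f h (l2 a)) l1 l2 t u v, q, mul_assoc,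
    mul_smul, smul_sum, map_sub, map_smul, op_of, map_natCast]
  simp only [← map_zsmul, e]
  simp only [map_sub, map_zsmul, map_nsmul, sum_sub_distrib, ← smul_sum,
    fun s => s_comm (fun h a => f h (Ha_le y.pos.ne' a)) s φ⁻¹, ← map_sum]
  generalize ∑ s ∈ U, σ s Q = W
  refine congrArg _ ?_
  change _ = (p : AddMonoid.End C) _ - a • σ φ⁻¹ _
  rw [AddMonoid.End.natCast_apply]

theorem sum_mul_range (p D : ℕ) (f : ℕ → C) :
    ∑ b ∈ range (p * D), f b = ∑ i ∈ range p, ∑ j ∈ range D, f (p * j + i) := by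
  rw [sum_comm]
  induction D with
  | zero => simp
  | succ D ih => rw [mul_add_one, sum_range_add, sum_range_succ, ih]

/-- the product of the Euler factors -/
def eu (a : ℕ → ℤ) (φ : ℕ → GQ) (l : List ℕ) : Gz :=
  (l.map fun p : ℕ => (p : Gz) - a p • MonoidAlgebra.of ℤ GQ (φ p)⁻¹).prod

/-- the sum of the primitive classes -/
def ZP (Z : Subgroup SL(2, ℤ) → Ξ → FF → FF → C) (ξ : Ξ) (c d k D : ℕ) (A : M2) : C :=
  ∑ b ∈ range D, ZL Z ξ c d k (A * !![(D : ℤ), b; 0, 1])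

/-- **several primes** -/
theorem primL (R : Ru X m Cu σ Z) (hD : DET X m Cu σ Z) {a : ℕ → ℤ} {φ : ℕ → GQ} (l : List ℕ)
    (nd : l.Nodup) (hk : k = n * l.prod) (x : Cx X m Cu ξ N c d k A) (y : Lv c d n A) (mn : m ∣ n)
    (Mn : M ∣ n) (h : ∀ p ∈ l, p.Prime ∧ ¬ p ∣ n ∧ p.Coprime (c * d) ∧ ¬ (p : ℤ) ∣ A.det ∧
      Uk X ξ p (a p) ∧ ∀ j, ¬ p ∣ j → Cyc j (φ p) p) (t : Tv (Hm M) (Hm k) T) :
    (l.map fun p : ℕ => ((p - 1) * a p * p ^ 2 : ℤ)).prod • ∑ s ∈ T, σ s (ZL Z ξ c d k A) =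
      op σ (eu a φ l) (∑ s ∈ T, σ s (ZP Z ξ c d k l.prod A)) := by
  induction l generalizing n A with
  | nil => simp [eu, ZP, ← one_fin_two]
  | cons p l ih =>
    obtain ⟨hp, pn, pc, pA', hU, hφ⟩ := h p (by simp)
    rw [List.nodup_cons] at nd
    have h' := fun q hq => h q (List.mem_cons_of_mem p hq)
    have ne q (hq : q ∈ l) : ¬ q ∣ p := fun e =>
      nd.1 ((Nat.prime_dvd_prime_iff_eq (h' q hq).1 hp).1 e ▸ hq)
    have pl : ¬ p ∣ n * l.prod := fun e => (hp.dvd_mul.1 e).elim pn fun e =>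
      let ⟨q, hq, e⟩ := (Prime.dvd_prod_iff hp.prime).1 e
      ne q hq ((Nat.prime_dvd_prime_iff_eq hp (h' q hq).1).1 e ▸ dvd_rfl)
    have l0 : 0 < l.prod := List.prod_pos fun q hq => (h' q hq).1.pos
    have pn' : IsCoprime (p : ℤ) n := Nat.isCoprime_iff_coprime.2 ((hp.coprime_iff_not_dvd).2 pn)
    rw [List.prod_cons] at hk
    have e := primN R hD (hk.trans (by ring)) x (y.up l0 (G := 1) (by simpa using Cg.rfl)
      (by simpa using isCoprime_one_left)) hp pl (mn.mul_right _) (Mn.mul_right _) pc pA' hU (hφ _ pl) t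
    have i (b : ℕ) := ih (n := n * p) (A := A * !![(p : ℤ), b; 0, 1]) nd.2 (hk.trans (by ring))
      (cx x (hk ▸ y.up (Nat.mul_pos hp.pos l0) Cg.rfl (by simpa using pn')))
      (y.up hp.pos Cg.rfl (by simpa using pn')) (mn.mul_right _) (Mn.mul_right _) fun q hq =>
        let ⟨a1, a2, a3, a4, a5⟩ := h' q hq
        ⟨a1, fun e => (a1.dvd_mul.1 e).elim a2 (ne q hq), a3, fun e => by
          rw [det_mul] at e
          exact ((Nat.prime_iff_prime_int.1 a1).dvd_or_dvd e).elim a4 fun e =>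
            ne q hq (Int.natCast_dvd_natCast.1 (by simpa using e)), a5⟩
    rw [List.map_cons, List.prod_cons, mul_comm, mul_smul, e, ← map_zsmul, eu, List.map_cons,
      List.prod_cons, map_mul, AddMonoid.End.coe_mul, Function.comp_apply, ← eu]
    refine congrArg _ ?_
    simp only [map_sum] at i ⊢
    rw [sum_comm, smul_sum, sum_congr rfl fun b _ => i b, sum_comm]
    refine sum_congr rfl fun s _ => ?_
    rw [← map_sum, ← map_sum, List.prod_cons, ZP, sum_mul_range]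
    refine congrArg _ (congrArg _ (sum_congr rfl fun b _ => sum_congr rfl fun j _ => congrArg _ ?_))
    rw [Matrix.mul_assoc]
    simp

end Vale.Agent.P014T.Pm
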