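import Vale.Agent.P014T.Pm.Sa
import Vale.Agent.P014T.Pm.Core

/-! # P014T, block PRIM: the primitive class at a prime which divides the level exactly (helper62) -/

set_option linter.all false

open UpperHalfPlane CongruenceSubgroup Matrix Finset
open scoped MatrixGroups

noncomputable section

namespace Vale.Agent.P014T.Pm

open Vale.Agent.P022 H218.L3 H231.L3 P027M.M P027M.M.Dp P022K.QT.Cu
open Dr (Hm Ha Tv)
open Sg Nr

variable {X : Mdl} {Ξ C : Type} [AddCommGroup Ξ] [DistribMulAction Au Ξ] [AddCommGroup C] {m : ℕ}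
  {Cu : AddSubgroup Ξ} {σ : GQ →* AddMonoid.End C} {Z : Subgroup SL(2, ℤ) → Ξ → FF → FF → C}
  {ξ : Ξ} {c d n p k N : ℕ} {A G Y Y' : M2} {u v : Fin 2 → ZMod p}

/-- `U_p ξ = a ξ` -/
def Uk (X : Mdl) (ξ : Ξ) (p : ℕ) (a : ℤ) : Prop :=
  ∀ h : ∀ j : ℕ, 0 < (!![1, (j : ℤ); 0, (p : ℤ)] : M2).det, ∑ j ∈ range p, pA X _ (h j) • ξ = a • ξ

/-- `Y ≡ A` modulo `n`, the columns modulo `p` are `u` and `v` -/
structure Mt (n : ℕ) (A Y : M2) (u v : Fin 2 → ZMod p) : Prop where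
  cg : Cg n Y A
  c0 : ∀ i, (Y i 0 : ZMod p) = u i
  c1 : ∀ i, (Y i 1 : ZMod p) = v i

theorem ex_crt [NeZero p] (pn : IsCoprime (p : ℤ) n) (a : ℤ) (x : ZMod p) :
    ∃ y : ℤ, (n : ℤ) ∣ y - a ∧ (y : ZMod p) = x := by
  obtain ⟨s, e, h⟩ := pn
  have := congrArg (Int.cast : ℤ → ZMod p) h
  refine ⟨a + n * (e * (x.val - a)), by simp, ?_⟩
  simp only [Int.cast_add, Int.cast_mul, Int.cast_sub, Int.cast_natCast, ZMod.natCast_self,
    ZMod.natCast_zmod_val, Int.cast_one] at this ⊢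
  linear_combination (x - a) * this

theorem ex_mt [NeZero p] (pn : IsCoprime (p : ℤ) n) (A : M2) (u v : Fin 2 → ZMod p) :
    ∃ Y, Mt n A Y u v := by
  choose y a b using ex_crt (p := p) pn
  exact ⟨of fun i => ![y (A i 0) (u i), y (A i 1) (v i)],
    fun i => Fin.forall_fin_two.2 ⟨a _ _, a _ _⟩, fun i => b _ _, fun i => b _ _⟩

theorem Mt.eq (pn : IsCoprime (p : ℤ) n) (a : Mt n A Y u v) (b : Mt n A Y' u v) :
    Cg (n * p : ℕ) Y Y' := fun i j => by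
  rw [Nat.cast_mul]
  refine pn.symm.mul_dvd (a.cg.trans b.cg.symm i j) ((ZMod.intCast_zmod_eq_zero_iff_dvd _ _).1 ?_)
  rw [Int.cast_sub, sub_eq_zero]
  revert j
  exact Fin.forall_fin_two.2 ⟨(a.c0 i).trans (b.c0 i).symm, (a.c1 i).trans (b.c1 i).symm⟩

theorem Mt.mul (a : Mt n A Y u v) {A' : M2} (h : Cg n (A * G) A') {u' v' : Fin 2 → ZMod p}
    (h0 : ∀ i, u i * G 0 0 + v i * G 1 0 = u' i) (h1 : ∀ i, u i * G 0 1 + v i * G 1 1 = v' i) :
    Mt n A' (Y * G) u' v' :=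
  ⟨(a.cg.mul Cg.rfl).trans h, fun i => by simp [mm, a.c0, a.c1, h0], fun i => by simp [mm, a.c0, a.c1, h1]⟩

theorem cg_one {γ : SL(2, ℤ)} (h : γ ∈ Gamma n) : Cg n (A * γ) A := by
  simpa using (Cg.rfl (A := A)).mul (mem_Ga.1 h)

theorem sum_sh [Fact p.Prime] (pn : IsCoprime (p : ℤ) n) (f : (Fin 2 → ZMod p) → C) :
    ∑ i ∈ range p, ∑ j ∈ range p, f ![n * i, n * j] = ∑ u, f u := by
  have n0 : (n : ZMod p) ≠ 0 := fun e => (Nat.prime_iff_prime_int.1 Fact.out).not_unit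
    (pn.isUnit_of_dvd' dvd_rfl (Int.natCast_dvd_natCast.2 ((ZMod.natCast_eq_zero_iff _ _).1 e)))
  have s (g : ZMod p → C) : ∑ i ∈ range p, g (n * i) = ∑ x, g x := by
    rw [← Equiv.sum_comp (Equiv.mulLeft₀ _ n0) g]
    refine (prod_zmod (M := Multiplicative C) p fun i => g (n * i)).symm.trans ?_
    simp only [ZMod.natCast_zmod_val]
    rfl
  rw [s fun x => ∑ j ∈ range p, f ![x, n * j], sum_congr rfl fun x _ => s fun y => f ![x, y],
    ← Fintype.sum_prod_type' fun x y => f ![x, y]]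
  exact Fintype.sum_equiv (finTwoArrowEquiv _).symm _ _ fun _ => rfl

theorem sum_tv [Fact p.Prime] (n0 : 0 < n) (pn : IsCoprime (p : ℤ) n) {T : Finset GQ}
    (t : Tv (Hm n) (Hm (n * p)) T) {f : GQ → C} {g : ZMod p → C}
    (h : ∀ s k, Cyc (n * p) s k → (n : ℤ) ∣ k - 1 → f s = g k) :
    ∑ s ∈ T, f s = ∑ k ∈ univ.erase (0 : ZMod p), g k := by
  have hp : p.Prime := Fact.out
  have k0 := Nat.mul_pos n0 hp.pos
  choose κ hκ using Uy.ex_cyc k0
  have a (s k) (e : Cyc (n * p) s k) : s ∈ Hm n ↔ (n : ℤ) ∣ k - 1 := by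
    rw [← Uy.cyc_hm n0, Uy.cyc_congr n0 (Uy.cyc_dvd k0 (dvd_mul_right _ _) e), dvd_sub_comm]
  have nz (k : ℤ) : (k : ZMod p) ≠ 0 ↔ IsCoprime (p : ℤ) k := by
    rw [Ne, ZMod.intCast_zmod_eq_zero_iff_dvd,
      (Nat.prime_iff_prime_int.1 hp).irreducible.coprime_iff_not_dvd]
  refine sum_bij (fun s _ => (κ s : ZMod p)) (fun s _ => mem_erase.2 ⟨(nz _).2 ?_, mem_univ _⟩)
    (fun s hs s' hs' e => ?_) (fun x hx => ?_) fun s hs => h s _ (hκ s) ((a s _ (hκ s)).1 (t.1 s hs))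
  · exact ((Uy.Cyc.cop k0 (hκ s)).of_isCoprime_of_dvd_right (by simp)).symm
  · refine (t.2 s' (t.1 s' hs')).unique ⟨hs, (cyc_rel k0 (hκ s) (hκ s')).2 ?_⟩ ⟨hs', by simp⟩
    rw [Nat.cast_mul]
    exact pn.symm.mul_dvd (by simpa using ((a _ _ (hκ s')).1 (t.1 s' hs')).sub ((a _ _ (hκ s)).1 (t.1 s hs)))
      ((ZMod.intCast_eq_intCast_iff_dvd_sub _ _ _).1 e)
  · obtain ⟨y, y1, y2⟩ := ex_crt pn 1 x
    obtain ⟨w, hw⟩ := y1
    obtain ⟨r, e⟩ := cyc_sur k0 (k := y) (by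
      rw [Nat.cast_mul]
      exact IsCoprime.mul_right ⟨1, -w, by linear_combination hw⟩ ((nz y).1 (y2 ▸ (mem_erase.1 hx).1)).symm)
    obtain ⟨s, ⟨hs, q⟩, -⟩ := t.2 r ((a r y e).2 ⟨w, hw⟩)
    exact ⟨s, hs, ((ZMod.intCast_eq_intCast_iff_dvd_sub _ _ _).2
      ((by simp : (p : ℤ) ∣ (n * p : ℕ)).trans ((cyc_rel k0 (hκ s) e).1 q))).trans y2⟩

theorem tor_eq {x : C} (h : m • x = 0) {k : ℤ} (e : (m : ℤ) ∣ k - 1) : k • x = x := by
  obtain ⟨j, e⟩ := e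
  rw [sub_eq_iff_eq_add.1 e, add_smul, one_smul, mul_comm, mul_smul, natCast_zsmul, h, smul_zero, zero_add]

theorem cx (x : Cx X m Cu ξ N c d k A) (y : Lv c d k Y) : Cx X m Cu ξ N c d k Y :=
  ⟨x.hc, x.hd, x.pos, x.four, x.md, x.nd, x.cu, x.inv, x.fix, y.n0, y.n1⟩

/-- **the unit class is the Euler factor times the primitive class** -/
theorem prim (R : Ru X m Cu σ Z) (hD : DET X m Cu σ Z) (x : Cx X m Cu ξ N c d (n * p) A)
    (y : Lv c d n A) (hp : p.Prime) (pn : ¬ p ∣ n) (mn : m ∣ n) (pc : p.Coprime (c * d))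
    (pA' : ¬ (p : ℤ) ∣ A.det) {a : ℤ} (hU : Uk X ξ p a) {φ : GQ} (hφ : Cyc n φ p) {T : Finset GQ}
    (t : Tv (Hm n) (Hm (n * p)) T) :
    (a * p ^ 2) • ∑ s ∈ T, σ s (ZL Z ξ c d (n * p) A) =
      p • ∑ b ∈ range p, ZL Z ξ c d (n * p) (A * !![(p : ℤ), b; 0, 1]) -
        a • σ φ⁻¹ (∑ b ∈ range p, ZL Z ξ c d (n * p) (A * !![(p : ℤ), b; 0, 1])) := by
  have := Fact.mk hp
  have p0 := hp.pos
  have k0 := x.pos
  have pn : IsCoprime (p : ℤ) n := Nat.isCoprime_iff_coprime.2 ((hp.coprime_iff_not_dvd).2 pn)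
  have mn : (m : ℤ) ∣ n := Int.natCast_dvd_natCast.2 mn
  have hj (j : ℤ) : 0 < (!![1, j; 0, (p : ℤ)] : M2).det := by simpa using p0
  have x0 : Xi X Cu (Gamma0 N) ξ := ⟨x.cu, x.inv, fun h _ => x.fix h⟩
  have x1 := xi_pA R x0 (hj 0) (cj_dl x.nd)
  have x2 := xi_mono x0 (Ga_G0 x.nd)
  choose Y hY using ex_mt pn A
  have lv {Y u v} (h : Mt (p := p) n A Y u v) : Lv c d (n * p) Y :=
    y.up p0 (G := 1) (by simpa using h.cg) (by simpa using isCoprime_one_left)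
  have lq (b : ℤ) : Lv c d (n * p) (A * !![(p : ℤ), b; 0, 1]) := y.up p0 Cg.rfl (by simpa using pn)
  have tz {Y} (h : Lv c d (n * p) Y) : m • ZL Z ξ c d (n * p) Y = 0 := R.tor _ _ _ _ (h.ok x2)
  choose cr c1 c2 using ex_crt (p := p) pn 0
  simp only [sub_zero] at c1
  choose cq c1 using c1
  have inv (t : ℤ) : pS X (up t) • ξ = ξ := x.inv _ (mem_G0.2 (dvd_zero _))
  let e0 : Fin 2 → ZMod p := fun i => A i 0
  let e1 : Fin 2 → ZMod p := fun i => A i 1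
  have mA : Mt n A A e0 e1 := ⟨Cg.rfl, fun _ => rfl, fun _ => rfl⟩
  have key := core (g0 := fun u v => ZL Z ξ c d (n * p) (Y u v))
    (g1 := fun u v => ZL Z (pA X _ (hj 0) • ξ) c d (n * p) (Y u v)) (a := a) (x := e0) (y := e1)
    (fun e => pA' ((ZMod.intCast_zmod_eq_zero_iff_dvd _ _).1 (by
      rw [det_fin_two]; push_cast; linear_combination e))) (fun u v j => ?_) (fun u v => ?_) fun u v j => ?_
  rotate_left
  · obtain ⟨g, -, -, g1, -, e⟩ := dl (p := p) (lo (cr j)) (b := 0) (by simp [lo, Dp.mk])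
    have := (lv (hY u v)).conj R x1 (lo (cr j)) ((hY _ _).eq pn ((hY u v).mul (cg_one (c1 j ▸ lo_mem _))
      (u' := u + j • v) (v' := v) (by simp [lo, Dp.mk, c2, mul_comm]) (by simp [lo, Dp.mk])))
    rwa [sw X _ (hj 0) e, x.inv g (mem_G0.2 (g1 ▸ (Int.natCast_dvd_natCast.2 x.nd).trans
      ⟨cq j, by rw [show lo (cr j) 1 0 = _ from c1 j]; push_cast; ring⟩))] at this
  · have e (j : ZMod p) : ZL Z (pA X _ (hj 0) • ξ) c d (n * p) (Y u (v + (-j) • u)) =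
        ZL Z (pA X _ (hj j.val) • ξ) c d (n * p) (Y u v) := by
      obtain ⟨s, hs⟩ := (ZMod.intCast_eq_intCast_iff_dvd_sub (j.val : ℤ) (cr j) p).1 (by simp [c2])
      rw [mul_comm, ZMod.natCast_val] at hs
      rw [← (lv (hY u _)).conj R x1 (up (cr j)) ((hY u v).eq pn ((hY u (v + (-j) • u)).mul
        (cg_one (c1 j ▸ up_mem _)) (by simp [up, Dp.mk]) (by simp [up, Dp.mk, c2, mul_comm]))),
        sw X _ (hj j.val) (g := up s) (by
          ext a b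
          fin_cases a <;> fin_cases b <;> simp [mm, up, Dp.mk, ← sub_eq_iff_eq_add', hs]), inv]
    have xj (j : ℕ) : Xi X Cu (Gamma (n * p)) (pA X _ (hj j) • ξ) := by
      have := xi_pA R x1 (SL_pos (up j)) (cj_Ga _ _)
      rwa [← pS, sw X _ (hj j) (g := up 0) (by
        ext a b
        fin_cases a <;> fin_cases b <;> simp [mm, up, Dp.mk]), inv] at this
    have o := (lv (hY u v)).ok x2
    rw [← Equiv.sum_comp (Equiv.neg _)]
    simp only [Equiv.neg_apply, e]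
    refine (prod_zmod (M := Multiplicative C) p fun i =>
      ZL Z (pA X _ (hj i) • ξ) c d (n * p) (Y u v)).trans ?_
    exact (z_sum R _ xj o.lev o.u1 o.u2).symm.trans (by rw [hU fun j => hj j, z_smul R o]; rfl)
  · have := (lv (hY u v)).conj R x2 (up (cr j)) ((hY _ _).eq pn ((hY u v).mul (cg_one (c1 j ▸ up_mem _))
      (u' := u) (v' := v + j • u) (by simp [up, Dp.mk]) (by simp [up, Dp.mk, c2, mul_comm, add_comm])))
    rwa [inv] at this
  have mq (b : ℤ) : Mt n (A * !![(p : ℤ), b; 0, 1]) (A * !![(p : ℤ), b; 0, 1]) 0 (e1 + (b : ZMod p) • e0) :=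
    mA.mul Cg.rfl (by simp) (by simp [mul_comm, add_comm])
  have q1 (b : ZMod p) : ∑ u, ZL Z (pA X _ (hj 0) • ξ) c d (n * p) (Y u (e1 + b • e0)) =
      ZL Z ξ c d (n * p) (A * !![(p : ℤ), b.val; 0, 1]) := by
    obtain ⟨s, w, h⟩ := id pn
    have h0 := hY 0 (e1 + b • e0)
    have l0 : Lv c d n (Y 0 (e1 + b • e0)) := by
      simpa using y.up one_pos (G := 1) (by simpa using h0.cg) (by simpa using isCoprime_one_left)
    have := (l0.up p0 (G := !![(p : ℤ), 0; 0, 1]) Cg.rfl (by simpa using pn)).conj R x2 (up (s * b.val))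
      ((mq b.val).eq pn ((h0.mul (G := !![(p : ℤ), 0; 0, 1]) Cg.rfl (u' := 0) (v' := e1 + b • e0)
        (by simp) (by simp)).mul ?_ (by simp [up, Dp.mk]) (by simp [up, Dp.mk])))
    · rw [inv] at this
      rw [this, stepA R p0 pn (pn.of_isCoprime_of_dvd_right mn) (pc.coprime_dvd_right (dvd_mul_right _ _))
        (pc.coprime_dvd_right (dvd_mul_left _ _)) x0 x.nd l0 (hj 0), ← sum_sh pn]
      refine sum_congr rfl fun i _ => sum_congr rfl fun j _ => ?_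
      have m1 : Mt n A (sh n (Y 0 (e1 + b • e0)) i j) ![(n : ZMod p) * (i : ZMod p), (n : ZMod p) * (j : ZMod p)]
          (e1 + b • e0) :=
        ⟨(sh_cg i j).trans (by simpa using h0.cg), Fin.forall_fin_two.2 (by simp [sh, h0.c0]),
          Fin.forall_fin_two.2 ⟨h0.c1 0, h0.c1 1⟩⟩
      have := (hY _ _).eq pn m1
      rw [ZL, ZL, sF_cv x.hc k0 (this 0), sF_cv x.hd k0 (this 1)]
    · rw [Matrix.mul_assoc]
      refine Cg.rfl.mul ?_
      simp only [Cg, Fin.forall_fin_two, mm]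
      simp [up, Dp.mk]
      exact ⟨-w * b.val, by simp only [ZMod.natCast_val] at *; linear_combination (b.cast : ℤ) * h⟩
  have q2 (b : ZMod p) : p • ZL Z ξ c d (n * p) (Y 0 (e1 + b • e0)) =
      σ φ⁻¹ (ZL Z ξ c d (n * p) (A * !![(p : ℤ), b.val; 0, 1])) := by
    obtain ⟨k, hk⟩ := Uy.ex_cyc k0 φ⁻¹
    have e := cyc_inv y.pos hφ (Uy.cyc_dvd k0 (dvd_mul_right _ _) hk)
    rw [hD ξ N c d _ _ (cx x (lq b.val)) !![k, -k * b.val; 0, 1] _ φ⁻¹ k hk (by simp) (by simp)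
      ((hY _ _).eq pn ((mq b.val).mul ?_ (by simp) (by simp))), ← natCast_zsmul, smul_smul,
      tor_eq (by rw [← map_nsmul, tz (lq _), map_zero]) (mn.trans e)]
    rw [Matrix.mul_assoc]
    refine (Cg.rfl.mul (B' := 1) ?_).trans (by simpa using Cg.rfl)
    simp only [Cg, Fin.forall_fin_two, mm]
    simp
    exact ⟨e, (e.mul_right (-b.cast)).trans (dvd_of_eq (by ring))⟩
  have q3 := sum_tv y.pos pn t (f := fun s => σ s (ZL Z ξ c d (n * p) A))
    (g := fun k => ZL Z ξ c d (n * p) (Y (k • e0) e1)) fun s k hk e => by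
      rw [hD ξ N c d _ A x !![k, 0; 0, 1] _ s k hk (by simp) (by simp) ((hY _ _).eq pn (mA.mul ?_
        (by simp [mul_comm]) (by simp))), tor_eq (by rw [← map_nsmul, tz (lv mA), map_zero]) (mn.trans e)]
      refine (Cg.rfl.mul (B' := 1) ?_).trans (by simpa using Cg.rfl)
      simpa [Cg, Fin.forall_fin_two] using e
  simp only [q1] at key
  have s : ∑ b : ZMod p, ZL Z ξ c d (n * p) (A * !![(p : ℤ), b.val; 0, 1]) =
      ∑ b ∈ range p, ZL Z ξ c d (n * p) (A * !![(p : ℤ), b; 0, 1]) :=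
    prod_zmod (M := Multiplicative C) p fun b => ZL Z ξ c d (n * p) (A * !![(p : ℤ), b; 0, 1])
  rw [← s, map_sum, ← sum_congr rfl fun b _ => q2 b, ← smul_sum, key, q3, ZMod.card]
  module

end Vale.Agent.P014T.Pm
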