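import Vale.Agent.P014T.Pm.Bas

/-! # P014T, block PRIM: transport by `τ ↦ τ / p` (helper62) -/

set_option linter.all false

open UpperHalfPlane CongruenceSubgroup Matrix Finset
open scoped MatrixGroups

noncomputable section

namespace Vale.Agent.P014T.Pm

open Vale.Agent.P022 H218.L3 H231.L3 P027M.M P027M.M.Dp P022K.QT.Cu
open Dr (Hm Ha Tv)
open Sg Nr

variable {X : Mdl} {Ξ C : Type} [AddCommGroup Ξ] [DistribMulAction Au Ξ] [AddCommGroup C] {m : ℕ}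
  {Cu : AddSubgroup Ξ} {σ : GQ →* AddMonoid.End C} {Z : Subgroup SL(2, ℤ) → Ξ → FF → FF → C}
  {ξ : Ξ} {c d n p k N : ℕ} {A G Y Y' : M2}

/-- the upper right entry is divisible by `n` -/
def Gu (n : ℤ) : Subgroup SL(2, ℤ) where
  carrier := {γ | n ∣ γ 0 1}
  one_mem' := by simp
  mul_mem' {γ δ} a b := by
    change n ∣ ((γ : M2) * (δ : M2)) 0 1
    rw [mm]
    exact (Dvd.dvd.mul_left b _).add (Dvd.dvd.mul_right a _)
  inv_mem' {γ} a := by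
    change n ∣ (adjugate (γ : M2)) 0 1
    rw [adjugate_fin_two]
    exact Dvd.dvd.neg_right a

/-- lower and upper unipotent matrices -/
def lo (t : ℤ) : SL(2, ℤ) := mk 1 0 t 1 (by ring)

def up (t : ℤ) : SL(2, ℤ) := mk 1 t 0 1 (by ring)

theorem lo_inv (γ : SL(2, ℤ)) (t : ℤ) : (γ * (lo t)⁻¹) 1 0 = γ 1 0 - γ 1 1 * t := by
  change ((γ : M2) * adjugate (lo t : M2)) 1 0 = _
  rw [mm, adjugate_fin_two]
  simp [lo, Dp.mk, sub_eq_add_neg]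

theorem up_inv (γ : SL(2, ℤ)) (t : ℤ) : (γ * (up t)⁻¹) 0 1 = γ 0 1 - γ 0 0 * t := by
  change ((γ : M2) * adjugate (up t : M2)) 0 1 = _
  rw [mm, adjugate_fin_two]
  simp [up, Dp.mk, sub_eq_add_neg, add_comm]

theorem lo_mem (t : ℤ) : lo (k * t) ∈ Gamma k := mem_Ga.2 (by simp [Cg, Fin.forall_fin_two, lo, Dp.mk])

theorem up_mem (t : ℤ) : up (k * t) ∈ Gamma k := mem_Ga.2 (by simp [Cg, Fin.forall_fin_two, up, Dp.mk])

theorem reps_gen [NeZero p] (k0 : 0 < k) (pk : p ∣ k) {H : Subgroup SL(2, ℤ)} {r : ℤ → SL(2, ℤ)}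
    {a b : Fin 2} (ab : b ≠ a) (hH : ∀ γ, γ ∈ H ↔ ((k * p : ℕ) : ℤ) ∣ γ a b)
    (m : ∀ t, r (k * t) ∈ Gamma k) (e : ∀ (γ : SL(2, ℤ)) t, (γ * (r t)⁻¹) a b = γ a b - γ a a * t)
    (r1 : ∀ t, r t a b = t ∧ r t a a = 1) :
    Reps (Gamma k) (Gamma k ⊓ H) fun j : ZMod p => r (k * j.val) := by
  have z : ((k : ℤ) : ZMod p) = 0 := (ZMod.intCast_zmod_eq_zero_iff_dvd _ _).2
    (Int.natCast_dvd_natCast.2 pk)
  refine ⟨fun j => m _, fun γ h => ?_, fun i j h => ?_⟩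
  · obtain ⟨B, hB⟩ := ex_B h
    refine ⟨(B a b : ℤ), (Gamma k).mul_mem h ((Gamma k).inv_mem (m _)), (hH _).2 ?_⟩
    rw [e, hB a b, hB a a, one_apply_eq, one_apply_ne ab.symm, zero_add,
      show ∀ x y w : ℤ, k * x - (1 + k * y) * (k * w) = k * (x - w - k * y * w) by intros; ring,
      dvd_np k0]
    simp only [Int.cast_sub, Int.cast_mul, z]
    simp
  · have := (hH _).1 h.2
    rw [e, (r1 _).1, (r1 _).2, one_mul, ← mul_sub, dvd_np k0] at this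
    simpa [sub_eq_zero] using this

theorem can {x y : C} (h : IsCoprime (p : ℤ) m) (a : m • x = 0) (b : m • y = 0) (e : p • x = p • y) :
    x = y := by
  obtain ⟨u, v, h⟩ := h
  have k (z : C) (a : m • z = 0) : z = u • p • z := by
    rw [← natCast_zsmul, smul_smul, eq_sub_of_add_eq h, sub_smul, one_smul, mul_smul, natCast_zsmul, a,
      smul_zero, sub_zero]
  rw [k x a, e, ← k y b]

theorem Lv.up (y : Lv c d n Y) (p0 : 0 < p) (h : Cg n Y' (Y * G)) (g : IsCoprime G.det n) :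
    Lv c d (n * p) Y' := by
  have k (e : ℕ) (i : Fin 2) (a : Nz e (vL n (Y i))) : Nz e (vL (n * p) (Y' i)) := by
    rw [nz_iff y.pos] at a
    refine (nz_iff (Nat.mul_pos y.pos p0)).2 fun b => a ?_
    have b' (j) : (n : ℤ) ∣ e * (Y * G) i j := by
      have := ((Int.natCast_dvd_natCast.2 (dvd_mul_right n p)).trans (b j)).sub ((h i j).mul_left e)
      rwa [mul_sub, sub_sub_cancel] at this
    have b0 := b' 0
    have b1 := b' 1
    rw [mm] at b0 b1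
    rw [det_fin_two] at g
    exact Fin.forall_fin_two.2 ⟨g.symm.dvd_of_dvd_mul_left (((b0.mul_left (G 1 1)).sub
      (b1.mul_left (G 1 0))).trans (dvd_of_eq (by ring))), g.symm.dvd_of_dvd_mul_left
      (((b1.mul_left (G 0 0)).sub (b0.mul_left (G 0 1))).trans (dvd_of_eq (by ring)))⟩
  exact ⟨y.hc, y.hd, Nat.mul_pos y.pos p0, y.four.mul_right _, k c 0 y.n0, k d 1 y.n1⟩

theorem dl (γ : SL(2, ℤ)) {b : ℤ} (e : γ 0 1 = p * b) : ∃ g : SL(2, ℤ), g 0 0 = γ 0 0 ∧ g 0 1 = b ∧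
    g 1 0 = p * γ 1 0 ∧ g 1 1 = γ 1 1 ∧
    (!![1, 0; 0, (p : ℤ)] : M2) * (γ : M2) = (g : M2) * !![1, 0; 0, (p : ℤ)] := by
  have := γ.det_coe
  rw [det_fin_two, e] at this
  refine ⟨mk (γ 0 0) b (p * γ 1 0) (γ 1 1) (by linear_combination this), rfl, rfl, rfl, rfl, ?_⟩
  ext i j
  fin_cases i <;> fin_cases j <;> simp [mm, Dp.mk, e, mul_comm]

theorem dl' (g : SL(2, ℤ)) {b : ℤ} (e : g 1 0 = p * b) : ∃ γ : SL(2, ℤ), γ 0 0 = g 0 0 ∧
    γ 0 1 = p * g 0 1 ∧ γ 1 0 = b ∧ γ 1 1 = g 1 1 ∧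
    (!![1, 0; 0, (p : ℤ)] : M2) * (γ : M2) = (g : M2) * !![1, 0; 0, (p : ℤ)] := by
  have := g.det_coe
  rw [det_fin_two, e] at this
  refine ⟨mk (g 0 0) (p * g 0 1) b (g 1 1) (by linear_combination this), rfl, rfl, rfl, rfl, ?_⟩
  ext i j
  fin_cases i <;> fin_cases j <;> simp [mm, Dp.mk, e, mul_comm]

theorem cj_dl (hN : N ∣ n * p) : Cj !![1, 0; 0, (p : ℤ)] (Gamma0 N) (Gamma (n * p)) := fun γ h => by
  obtain ⟨b, e⟩ := mem_Ga.1 h 0 1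
  obtain ⟨g, -, -, a, -, k⟩ := dl (p := p) γ (b := n * b) (by simpa [mul_left_comm, mul_assoc] using e)
  exact ⟨g, mem_G0.2 (a ▸ (mem_G0.1 (Ga_G0 hN h)).mul_left _), k⟩

/-- the first column is moved by `n (i, j)` -/
def sh (n : ℕ) (Y : M2) (i j : ℤ) : M2 := of ![![Y 0 0 + n * i, Y 0 1], ![Y 1 0 + n * j, Y 1 1]]

theorem sh_cg (i j : ℤ) : Cg n (sh n Y i j) (Y * 1) := by simp [Cg, Fin.forall_fin_two, sh]

theorem stepA (R : Ru X m Cu σ Z) (p0 : 0 < p) (pn : IsCoprime (p : ℤ) n) (pm : IsCoprime (p : ℤ) m)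
    (pc : p.Coprime c) (pd : p.Coprime d) (x : Xi X Cu (Gamma0 N) ξ) (hN : N ∣ n * p)
    (y : Lv c d n Y) (hδ : 0 < (!![1, 0; 0, (p : ℤ)] : M2).det) :
    ZL Z ξ c d (n * p) (Y * !![(p : ℤ), 0; 0, 1]) =
      ∑ i ∈ range p, ∑ j ∈ range p, ZL Z (pA X _ hδ • ξ) c d (n * p) (sh n Y i j) := by
  have := NeZero.mk p0.ne'
  have k0 := Nat.mul_pos y.pos p0
  have y0 : Lv c d (n * p) (Y * !![(p : ℤ), 0; 0, 1]) := y.up p0 Cg.rfl (by simpa using pn)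
  have y1 (i j : ℤ) : Lv c d (n * p) (sh n Y i j) := y.up p0 (sh_cg i j) (by simpa using isCoprime_one_left)
  have x0 := xi_mono x (Ga_G0 hN)
  have x1 := xi_pA R x hδ (cj_dl hN)
  have l (H : Subgroup SL(2, ℤ)) (h : Gamma (n * p * p) ≤ H) : Lev (Gamma (n * p) ⊓ H) :=
    ⟨⟨_, Nat.mul_pos k0 p0, le_inf (Ga_le (dvd_mul_right _ _)) h⟩,
      inf_le_left.trans (lev_Ga k0 y0.four).hi⟩
  have l1 := l _ (Ga_G0 dvd_rfl)
  have l2 := l (Gu (n * p * p : ℕ)) fun γ h => (mem_Ga.1 h 0 1).trans (by simp)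
  have r1 := reps_gen (p := p) k0 (dvd_mul_left _ _) (H := Gamma0 (n * p * p)) (r := lo) (a := 1) (b := 0)
    (by decide) (fun _ => mem_G0) lo_mem lo_inv fun _ => ⟨rfl, rfl⟩
  have r2 := reps_gen (p := p) k0 (dvd_mul_left _ _) (H := Gu (n * p * p : ℕ)) (r := up) (a := 0) (b := 1)
    (by decide) (fun _ => Iff.rfl) up_mem up_inv fun _ => ⟨rfl, rfl⟩
  have e (e : ℕ) (he : e ^ 2 % 24 = 1) (pe : p.Coprime e) (i : Fin 2)
      (a : Nz e (vL (n * p) ((Y * !![(p : ℤ), 0; 0, 1]) i))) :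
      X.pb _ hδ (sF e (vL (n * p) ((Y * !![(p : ℤ), 0; 0, 1]) i))) =
        ∏ j ∈ range p, sF e (vL (n * p) ![Y i 0 + n * j, Y i 1]) := by
    have q : vL (n * p) ((Y * !![(p : ℤ), 0; 0, 1]) i) = ![p * vL (n * p) (Y i) 0, vL (n * p) (Y i) 1] :=
      funext (Fin.forall_fin_two.2 ⟨by simp [vL, mm]; ring, by simp [vL, mm]⟩)
    rw [q] at a ⊢
    rw [← sF_dist2 he X p0 pe a hδ]
    have : (n : ℚ) ≠ 0 := Nat.cast_ne_zero.2 y.pos.ne'
    refine prod_congr rfl fun j _ => congrArg _ (funext (Fin.forall_fin_two.2 ⟨?_, rfl⟩))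
    simp [vL]
    field_simp
  refine can pm (R.tor _ _ _ _ (y0.ok x0)) (by
    simp only [smul_sum, ZL, R.tor _ _ _ _ ((y1 _ _).ok x1), sum_const_zero]) ?_
  have z1 := z_idx R (y0.ok x0) inf_le_left l1 r1
  have z2 (i j : ℤ) := z_idx R ((y1 i j).ok x1) inf_le_left l2 r2
  rw [ZMod.card] at z1 z2
  simp only [smul_sum, ZL, ← z2]
  rw [← z1, ← R.conj _ _ ξ _ _ _ hδ ?_ ?_ (comm X _) (ok_mono (y0.ok x0) inf_le_left l1) l2,
    e c y.hc pc 0 y0.n0, e d y.hd pd 1 y0.n1]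
  · have u (j : ℕ) := un_mono ((y1 j j).ok x1).u1 (inf_le_left (b := Gu (n * p * p : ℕ)))
    have v (j : ℕ) := un_mono ((y1 j j).ok x1).u2 (inf_le_left (b := Gu (n * p * p : ℕ)))
    exact (z_prod R _ u l2 (xi_mono x1 inf_le_left) (un_prod _ v)).trans
      (sum_congr rfl fun i _ => z_prod' R _ v l2 (xi_mono x1 inf_le_left) (u i))
  · rintro γ ⟨h1, b, e⟩
    obtain ⟨g, a0, a1, a2, a3, k⟩ := dl (p := p) γ (b := (n * p : ℕ) * b) (by rw [e]; push_cast; ring)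
    have h := mem_Ga.1 h1
    have h' : ((n * p : ℕ) : ℤ) ∣ γ 1 0 := by simpa using h 1 0
    refine ⟨g, ⟨mem_Ga.2 ?_, mem_G0.2 ?_⟩, k⟩
    · simp only [Cg, Fin.forall_fin_two, a0, a1, a2, a3]
      exact ⟨⟨h 0 0, by simp⟩, by simpa using h'.mul_left p, h 1 1⟩
    · rw [a2, Nat.cast_mul, mul_comm]
      exact mul_dvd_mul_left _ h'
  · rintro g ⟨h1, h2⟩
    obtain ⟨b, e⟩ := mem_G0.1 h2
    obtain ⟨γ, a0, a1, a2, a3, k⟩ := dl' (p := p) g (b := (n * p : ℕ) * b) (by rw [e]; push_cast; ring)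
    have h := mem_Ga.1 h1
    have h' : ((n * p : ℕ) : ℤ) ∣ g 0 1 := by simpa using h 0 1
    refine ⟨γ, ⟨mem_Ga.2 ?_, ?_⟩, k⟩
    · simp only [Cg, Fin.forall_fin_two, a0, a1, a2, a3]
      exact ⟨⟨h 0 0, by simpa using h'.mul_left p⟩, by simp, h 1 1⟩
    · change _ ∣ γ 0 1
      rw [a1, Nat.cast_mul, mul_comm]
      exact mul_dvd_mul_left _ h'

end Vale.Agent.P014T.Pm
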